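import Vale.Agent.P171.Defs

namespace Vale.Agent.P171

/-- First-order transition at inverse temperature `β` with gas density at most `a` and liquid
density at least `b`: the function `z ↦ Π(β, z)` exists on `(0, ∞)` and at some point `z > 0` it
has a left derivative `dl` and a right derivative `dr`, with `z * dl ≤ a` and `b ≤ z * dr`
(the density is `z ∂Π/∂z`). -/
def DensityJump (φ : ℝ → ℝ) (β a b : ℝ) : Prop :=
  ∃ Pi : ℝ → ℝ, (∀ z : ℝ, 0 < z → HasPressure φ β z (Pi z)) ∧
    ∃ z dl dr : ℝ, 0 < z ∧ HasDerivWithinAt Pi dl (Set.Iio z) z ∧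
      HasDerivWithinAt Pi dr (Set.Ioi z) z ∧ z * dl ≤ a ∧ b ≤ z * dr

end Vale.Agent.P171
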