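import Vale.Agent.P171.H709.Scaled
import Vale.Agent.P171.H709.Defs
import Mathlib.Analysis.Convex.Deriv
import Mathlib.MeasureTheory.Measure.Lebesgue.EqHaar

open MeasureTheory Filter Topology Set
open scoped ENNReal

namespace Vale.Agent.P171.H709

/-- A kink of a convex function gives one-sided derivatives on both sides of the gap. -/
theorem onesided_of_kink {G : ℝ → ℝ} (hG : ConvexOn ℝ univ G) {μ a b : ℝ}
    (h : ∀ s, G μ + max (a * (s - μ)) (b * (s - μ)) ≤ G s) :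
    ∃ gl gr : ℝ, HasDerivWithinAt G gl (Iio μ) μ ∧ HasDerivWithinAt G gr (Ioi μ) μ ∧
      gl ≤ a ∧ b ≤ gr := by
  have hμ : μ ∈ interior (univ : Set ℝ) := by simp
  refine ⟨_, _, hG.hasDerivWithinAt_leftDeriv_of_mem_interior hμ,
    hG.hasDerivWithinAt_rightDeriv_of_mem_interior hμ, ?_, ?_⟩
  · have hl := hasDerivWithinAt_iff_tendsto_slope' (by simp : μ ∉ Iio μ) |>.1
      (hG.hasDerivWithinAt_leftDeriv_of_mem_interior hμ)
    refine le_of_tendsto hl ?_
    filter_upwards [self_mem_nhdsWithin] with s hs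
    have hs' : s - μ < 0 := sub_neg.2 hs
    rw [slope_def_field, div_le_iff_of_neg hs']
    have := h s
    have h2 : a * (s - μ) ≤ max (a * (s - μ)) (b * (s - μ)) := le_max_left _ _
    linarith
  · have hr := hasDerivWithinAt_iff_tendsto_slope' (by simp : μ ∉ Ioi μ) |>.1
      (hG.hasDerivWithinAt_rightDeriv_of_mem_interior hμ)
    refine ge_of_tendsto hr ?_
    filter_upwards [self_mem_nhdsWithin] with s hs
    have hs' : 0 < s - μ := sub_pos.2 hs
    rw [slope_def_field, le_div_iff₀ hs']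
    have := h s
    have h2 : b * (s - μ) ≤ max (a * (s - μ)) (b * (s - μ)) := le_max_right _ _
    linarith

theorem energy_smul (φ : ℝ → ℝ) (β : ℝ) {N : ℕ} (x : Fin N → E3) :
    energy (fun r => β * φ r) x = β * energy φ x := by
  unfold energy
  simp only [Finset.mul_sum]

theorem Xi_beta (φ : ℝ → ℝ) (β z L : ℝ) : Xi φ β z L = Xi (fun r => β * φ r) 1 z L := by
  unfold Xi Z
  simp only [energy_smul]
  congr 1
  funext N
  congr 3
  funext x
  congr 2
  ring

theorem hasPressure_beta {φ : ℝ → ℝ} {β z p : ℝ} (h : HasPressure (fun r => β * φ r) 1 z p) :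
    HasPressure φ β z p := by
  obtain ⟨h1, h2⟩ := h
  exact ⟨fun L hL => by rw [Xi_beta]; exact h1 L hL, h2.congr fun L => by rw [← Xi_beta]⟩

/-- From a kink of the pressure in the chemical potential to the density jump. -/
theorem densityJump_of_kink {φ : ℝ → ℝ} {κ c β a b : ℝ} (hκ : 1 ≤ κ)
    (h : Nice κ (rad (fun r => β * φ r))) {μ : ℝ}
    (hd : ∀ s, PW (rad (fun r => β * φ r)) (μ + c) + max (a * (s - μ)) (b * (s - μ)) ≤
      PW (rad (fun r => β * φ r)) (s + c)) : DensityJump φ β a b := by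
  have hconv := convex_PW hκ h c
  obtain ⟨gl, gr, hl, hr, hgl, hgr⟩ := onesided_of_kink hconv hd
  set c' : ℝ := c - β * φ 0 / 2 with hc'
  set z : ℝ := Real.exp (μ + c') with hz
  have hz0 : 0 < z := Real.exp_pos _
  have hlogz : Real.log z - c' = μ := by rw [hz, Real.log_exp]; ring
  have hfun : ∀ t : ℝ, PW (rad (fun r => β * φ r)) (Real.log t + β * φ 0 / 2) =
      (fun ν => PW (rad (fun r => β * φ r)) (ν + c)) (Real.log t - c') := by
    intro t
    show _ = PW (rad (fun r => β * φ r)) (Real.log t - c' + c)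
    congr 1
    rw [hc']; ring
  have hlog : ∀ S : Set ℝ, HasDerivWithinAt (fun t : ℝ => Real.log t - c') z⁻¹ S z := fun S =>
    ((Real.hasDerivAt_log hz0.ne').sub_const c').hasDerivWithinAt
  refine ⟨fun t => PW (rad (fun r => β * φ r)) (Real.log t + β * φ 0 / 2),
    fun t ht => hasPressure_beta (hasPressure_of_nice hκ h ht), z, gl * z⁻¹, gr * z⁻¹, hz0,
    ?_, ?_, ?_, ?_⟩
  · have h1 : HasDerivWithinAt (fun t => PW (rad (fun r => β * φ r)) (Real.log t + β * φ 0 / 2))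
        (gl * z⁻¹) (Ioo 0 z) z := by
      have h2 : HasDerivWithinAt (fun ν => PW (rad (fun r => β * φ r)) (ν + c)) gl (Iio μ)
          (Real.log z - c') := by rw [hlogz]; exact hl
      have h3 := h2.comp z (hlog (Ioo 0 z)) (fun t ht => by
        show Real.log t - c' < μ
        rw [← hlogz]
        have := Real.log_lt_log ht.1 ht.2
        linarith)
      refine h3.congr (fun t _ => hfun t) (hfun z)
    exact h1.mono_of_mem_nhdsWithin (Ioo_mem_nhdsLT hz0)
  · have h2 : HasDerivWithinAt (fun ν => PW (rad (fun r => β * φ r)) (ν + c)) gr (Ioi μ)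
        (Real.log z - c') := by rw [hlogz]; exact hr
    have h3 := h2.comp z (hlog (Ioi z)) (fun t ht => by
      show μ < Real.log t - c'
      rw [← hlogz]
      have := Real.log_lt_log hz0 (show z < t from ht)
      linarith)
    exact h3.congr (fun t _ => hfun t) (hfun z)
  · have : z * (gl * z⁻¹) = gl := by field_simp
    rw [this]; exact hgl
  · have : z * (gr * z⁻¹) = gr := by field_simp
    rw [this]; exact hgr

/-- A density jump is a phase transition. -/
theorem hasPhaseTransition_of_jump {φ : ℝ → ℝ} {β a b : ℝ} (hβ : 0 < β) (hab : a < b)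
    (h : DensityJump φ β a b) : HasPhaseTransition φ := by
  obtain ⟨Pi, hPi, z, dl, dr, hz, hl, hr, ha, hb⟩ := h
  refine ⟨β, hβ, Pi, hPi, z, hz, fun hd => ?_⟩
  have h1 := hd.hasDerivAt
  have e1 : dl = deriv Pi z := (uniqueDiffWithinAt_Iio z).eq_deriv _ hl h1.hasDerivWithinAt
  have e2 : dr = deriv Pi z := (uniqueDiffWithinAt_Ioi z).eq_deriv _ hr h1.hasDerivWithinAt
  rw [e1] at ha
  rw [e2] at hb
  linarith

/-! ## Scaling of space -/

/-- change of variables -/
theorem setLIntegral_scale {N : ℕ} {l : ℝ} (hl : 0 < l) (L : ℝ) (G : (Fin N → E3) → ℝ≥0∞) :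
    ∫⁻ x in {x : Fin N → E3 | ∀ i, x i ∈ box L}, G (l⁻¹ • x) =
      ENNReal.ofReal (l ^ (3 * N)) * ∫⁻ y in {y : Fin N → E3 | ∀ i, y i ∈ box (L / l)}, G y := by
  have hl' : l⁻¹ ≠ 0 := (inv_pos.mpr hl).ne'
  have hemb : MeasurableEmbedding (fun x : Fin N → E3 => l⁻¹ • x) :=
    (Homeomorph.smulOfNeZero l⁻¹ hl').measurableEmbedding
  have hset : {x : Fin N → E3 | ∀ i, x i ∈ box L} =
      (fun x : Fin N → E3 => l⁻¹ • x) ⁻¹' {y : Fin N → E3 | ∀ i, y i ∈ box (L / l)} := by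
    ext x
    simp only [mem_ofPred_eq, mem_preimage, box, Pi.smul_apply, PiLp.smul_apply, smul_eq_mul]
    refine forall_congr' fun i => forall_congr' fun k => ?_
    constructor
    · rintro ⟨h1, h2⟩
      refine ⟨by positivity, ?_⟩
      rw [div_eq_inv_mul]
      exact mul_le_mul_of_nonneg_left h2 (by positivity)
    · rintro ⟨h1, h2⟩
      rw [div_eq_inv_mul] at h2
      exact ⟨(mul_nonneg_iff_of_pos_left (inv_pos.mpr hl)).1 h1,
        le_of_mul_le_mul_left h2 (inv_pos.mpr hl)⟩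
  have hmap := Measure.map_addHaar_smul (volume : Measure (Fin N → E3)) hl'
  have hfin : Module.finrank ℝ (Fin N → E3) = 3 * N := by
    rw [Module.finrank_pi_fintype]
    simp [E3, mul_comm]
  have hc : |((l⁻¹) ^ (3 * N))⁻¹| = l ^ (3 * N) := by
    rw [inv_pow, inv_inv, abs_of_pos (by positivity)]
  rw [hfin, hc] at hmap
  rw [hset]
  have h1 := hemb.restrict_map (μ := (volume : Measure (Fin N → E3)))
    {y : Fin N → E3 | ∀ i, y i ∈ box (L / l)}
  have h2 := hemb.lintegral_map (μ := (volume : Measure (Fin N → E3)).restrict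
    ((fun x : Fin N → E3 => l⁻¹ • x) ⁻¹' {y : Fin N → E3 | ∀ i, y i ∈ box (L / l)})) G
  rw [← h2, ← h1, hmap, Measure.restrict_smul, lintegral_smul_measure, smul_eq_mul]

theorem energy_scale (φ : ℝ → ℝ) (c : ℝ) {l : ℝ} (hl : 0 < l) {N : ℕ} (x : Fin N → E3) :
    energy (fun r => c * φ (r / l)) x = c * energy φ (l⁻¹ • x) := by
  unfold energy
  simp only [Finset.mul_sum]
  refine Finset.sum_congr rfl fun i _ => Finset.sum_congr rfl fun j _ => ?_
  rw [Pi.smul_apply, Pi.smul_apply, ← smul_sub, norm_smul, Real.norm_of_nonneg (by positivity),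
    div_eq_inv_mul]

theorem Xi_scale (φ : ℝ → ℝ) (c β z L : ℝ) {l : ℝ} (hl : 0 < l) (hz : 0 < z) :
    Xi (fun r => c * φ (r / l)) β z L = Xi φ (β * c) (l ^ 3 * z) (L / l) := by
  unfold Xi Z
  refine tsum_congr fun N => ?_
  have h1 : ∀ x : Fin N → E3, ENNReal.ofReal (Real.exp (-β * energy (fun r => c * φ (r / l)) x)) =
      (fun y : Fin N → E3 => ENNReal.ofReal (Real.exp (-(β * c) * energy φ y))) (l⁻¹ • x) := by
    intro x
    rw [energy_scale φ c hl]
    show _ = ENNReal.ofReal (Real.exp (-(β * c) * energy φ (l⁻¹ • x)))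
    congr 2; ring
  simp_rw [h1]
  have h0 := setLIntegral_scale (N := N) hl L
    (fun y : Fin N → E3 => ENNReal.ofReal (Real.exp (-(β * c) * energy φ y)))
  rw [h0]
  have h2 : ENNReal.ofReal ((l ^ 3 * z) ^ N) =
      ENNReal.ofReal (z ^ N) * ENNReal.ofReal (l ^ (3 * N)) := by
    rw [← ENNReal.ofReal_mul (by positivity), mul_pow, pow_mul]
    congr 1; ring
  rw [h2]
  ring

theorem hasPressure_scale {φ : ℝ → ℝ} {c β z p l : ℝ} (hl : 0 < l) (hz : 0 < z)
    (h : HasPressure φ (β * c) (l ^ 3 * z) p) :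
    HasPressure (fun r => c * φ (r / l)) β z (p / l ^ 3) := by
  obtain ⟨h1, h2⟩ := h
  refine ⟨fun L hL => ?_, ?_⟩
  · rw [Xi_scale φ c β z L hl hz]
    exact h1 _ (by positivity)
  · have h3 : Tendsto (fun L : ℝ => L / l) atTop atTop := tendsto_id.atTop_div_const hl
    have h4 := (h2.comp h3).div_const (l ^ 3)
    refine h4.congr fun L => ?_
    rw [Xi_scale φ c β z L hl hz]
    simp only [Function.comp]
    rw [div_pow]
    field_simp

theorem densityJump_scale {φ : ℝ → ℝ} {c β a b l : ℝ} (hl : 0 < l)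
    (h : DensityJump φ (β * c) a b) :
    DensityJump (fun r => c * φ (r / l)) β (a / l ^ 3) (b / l ^ 3) := by
  obtain ⟨Pi, hPi, z, dl, dr, hz, hdl, hdr, ha, hb⟩ := h
  have hl3 : 0 < l ^ 3 := by positivity
  have hz' : l ^ 3 * (z / l ^ 3) = z := by field_simp
  refine ⟨fun t => Pi (l ^ 3 * t) / l ^ 3, fun t ht => hasPressure_scale hl ht
    (hPi _ (by positivity)), z / l ^ 3, dl, dr, by positivity, ?_, ?_, ?_, ?_⟩
  · have h1 : HasDerivWithinAt (fun t : ℝ => l ^ 3 * t) (l ^ 3 * 1) (Iio (z / l ^ 3)) (z / l ^ 3) :=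
      (hasDerivWithinAt_id _ _).const_mul _
    have h2 : HasDerivWithinAt Pi dl (Iio z) (l ^ 3 * (z / l ^ 3)) := by rw [hz']; exact hdl
    have h3 := (h2.comp (z / l ^ 3) h1 (fun t ht => by
      show l ^ 3 * t < z
      rw [← hz']
      exact mul_lt_mul_of_pos_left ht hl3)).div_const (l ^ 3)
    have e : dl * (l ^ 3 * 1) / l ^ 3 = dl := by field_simp
    rw [e] at h3
    exact h3
  · have h1 : HasDerivWithinAt (fun t : ℝ => l ^ 3 * t) (l ^ 3 * 1) (Ioi (z / l ^ 3)) (z / l ^ 3) :=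
      (hasDerivWithinAt_id _ _).const_mul _
    have h2 : HasDerivWithinAt Pi dr (Ioi z) (l ^ 3 * (z / l ^ 3)) := by rw [hz']; exact hdr
    have h3 := (h2.comp (z / l ^ 3) h1 (fun t ht => by
      show z < l ^ 3 * t
      rw [← hz']
      exact mul_lt_mul_of_pos_left ht hl3)).div_const (l ^ 3)
    have e : dr * (l ^ 3 * 1) / l ^ 3 = dr := by field_simp
    rw [e] at h3
    exact h3
  · rw [div_mul_eq_mul_div]
    exact div_le_div_of_nonneg_right ha hl3.le
  · rw [div_mul_eq_mul_div]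
    exact div_le_div_of_nonneg_right hb hl3.le

/-- The reference potential of the construction. -/
noncomputable def phi0 (B : ℕ) (ρ : ℝ) : ℝ := core3 A3 ρ - gsum (rr3 B) (al3 B) ρ

theorem main709 (β₀ a b : ℝ) (hβ₀ : 0 < β₀) (ha : 0 < a) : ∃ φ : ℝ → ℝ,
    Continuous φ ∧ (∃ M : ℝ, ∀ r : ℝ, |φ r| ≤ M) ∧
    (∃ C ε : ℝ, 0 < C ∧ 0 < ε ∧ ∀ r : ℝ, 0 < r → |φ r| ≤ C * r ^ (-(3 + ε))) ∧
    (∀ r : ℝ, 3 ≤ r → φ r ≤ 0) ∧
    IsPotential φ ∧ Stable φ ∧ Tempered φ ∧
    ∀ β : ℝ, β₀ ≤ β → DensityJump φ β a b := by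
  -- the space scale
  obtain ⟨l, hl0, hl1, hlb⟩ : ∃ l : ℝ, 0 < l ∧ l ≤ 1 ∧ l ^ 3 * |b| ≤ 3 / 256 := by
    refine ⟨min 1 (3 / 256 / (|b| + 1)), by positivity, min_le_left _ _, ?_⟩
    have h0 : 0 < min 1 (3 / 256 / (|b| + 1)) := by positivity
    have h1 : (min 1 (3 / 256 / (|b| + 1))) ^ 3 ≤ min 1 (3 / 256 / (|b| + 1)) := by
      calc (min 1 (3 / 256 / (|b| + 1))) ^ 3 ≤ (min 1 (3 / 256 / (|b| + 1))) ^ 1 :=
            pow_le_pow_of_le_one h0.le (min_le_left _ _) (by norm_num)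
        _ = _ := pow_one _
    have h2 : min 1 (3 / 256 / (|b| + 1)) * |b| ≤ 3 / 256 / (|b| + 1) * (|b| + 1) := by
      have := abs_nonneg b
      have h3 : min 1 (3 / 256 / (|b| + 1)) ≤ 3 / 256 / (|b| + 1) := min_le_right _ _
      have h4 : 0 ≤ 3 / 256 / (|b| + 1) := by positivity
      nlinarith
    have h5 : 3 / 256 / (|b| + 1) * (|b| + 1) = 3 / 256 := by field_simp
    calc _ ≤ min 1 (3 / 256 / (|b| + 1)) * |b| := mul_le_mul_of_nonneg_right h1 (abs_nonneg _)
      _ ≤ 3 / 256 := h2.trans h5.le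
  have hl3 : 0 < l ^ 3 := by positivity
  -- the small density
  obtain ⟨τ, hτ⟩ : ∃ τ : ℝ, τ = min (1 / 256) (l ^ 3 * a) := ⟨_, rfl⟩
  have hτ0 : 0 < τ := by rw [hτ]; positivity
  have hτ1 : τ ≤ 1 / 256 := by rw [hτ]; exact min_le_left _ _
  have hτ2 : τ ≤ l ^ 3 * a := by rw [hτ]; exact min_le_right _ _
  -- the base scale
  obtain ⟨B, hBge⟩ := exists_nat_gt (max 4 (128 * K13 / τ ^ 2))
  have hB4 : (4 : ℝ) < B := lt_of_le_of_lt (le_max_left _ _) hBge
  have hBK : 128 * K13 < τ ^ 2 * B := by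
    have := lt_of_le_of_lt (le_max_right _ _) hBge
    rw [div_lt_iff₀ (by positivity)] at this
    linarith
  have hB4' : 4 < B := by exact_mod_cast hB4
  have hB : 2 ≤ B := by omega
  -- the base inverse temperature
  obtain ⟨g, hg⟩ : ∃ g : ℝ, g = 1 + 1 / τ ^ 2 := ⟨_, rfl⟩
  have hg1 : 1 ≤ g := by rw [hg]; have : 0 ≤ 1 / τ ^ 2 := by positivity
                         linarith
  have hg2 : 8 < g * 2 ^ 22 * τ ^ 2 := by
    have e : g * 2 ^ 22 * τ ^ 2 = 2 ^ 22 * (1 + τ ^ 2) := by rw [hg]; field_simp; ring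
    rw [e]
    have := sq_nonneg τ
    linarith
  have hg0 : 0 < g := by linarith
  have hc0 : 0 < g / β₀ := by positivity
  -- properties of the reference potential
  have hb : ∀ r, |phi0 B r| ≤ A3 + ∑' k, al3 B k := fun r =>
    prof3_bounded A3_pos.le (coef3 hB) r
  have hcont : Continuous (phi0 B) := continuous_prof3 A3 (coef3 hB)
  have hneg : ∀ r : ℝ, 3 ≤ r → phi0 B r ≤ 0 := by
    intro r hr
    unfold phi0
    rw [core3_eq_zero hr]
    linarith [gsum_nonneg (coef3 hB) r]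
  have hjump : ∀ β, g ≤ β → DensityJump (phi0 B) β τ (1 / 64 - τ) := by
    intro β hβ
    have hβ1 : 1 ≤ β := hg1.trans hβ
    have hβτ : 8 < β * 2 ^ 22 * τ ^ 2 := hg2.trans_le (by gcongr)
    obtain ⟨μ, hμ⟩ := jump_WI hB4 hτ0 hτ1 hBK hβ1 hβτ
    have e : WIb β B = rad (fun r => β * phi0 B r) := rfl
    rw [e] at hμ
    refine densityJump_of_kink (one_le_mul_kap hβ1) (c := β * A3 / 2) (μ := μ) ?_ hμ
    rw [← e]
    exact nice_WIb hB hβ1
  obtain ⟨φ, hφ⟩ : ∃ φ : ℝ → ℝ, φ = fun r => g / β₀ * phi0 B (r / l) := ⟨_, rfl⟩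
  have hφc : Continuous φ := by
    rw [hφ]
    exact continuous_const.mul (hcont.comp (continuous_id.div_const l))
  have hφb : ∀ r, |φ r| ≤ g / β₀ * (A3 + ∑' k, al3 B k) := by
    intro r
    rw [hφ]
    simp only
    rw [abs_mul, abs_of_pos hc0]
    exact mul_le_mul_of_nonneg_left (hb _) hc0.le
  have hφn : ∀ r : ℝ, 3 ≤ r → φ r ≤ 0 := by
    intro r hr
    rw [hφ]
    refine mul_nonpos_of_nonneg_of_nonpos hc0.le (hneg _ ?_)
    rw [le_div_iff₀ hl0]
    nlinarith
  refine ⟨φ, hφc, ⟨_, hφb⟩, ?_, hφn, isPotential_of_bdd hφc.measurable hφb, ?_,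
    tempered_of_nonpos hφn, ?_⟩
  · obtain ⟨C, ε, hC, hε, hdec⟩ := two_sided3 A3_pos.le hB
    refine ⟨g / β₀ * (C * l ^ (3 + ε)), ε, by positivity, hε, fun r hr => ?_⟩
    rw [hφ]
    simp only
    rw [abs_mul, abs_of_pos hc0]
    have h1 : |phi0 B (r / l)| ≤ C * (r / l) ^ (-(3 + ε)) := hdec (r / l) (by positivity)
    have h2 : (r / l) ^ (-(3 + ε)) = r ^ (-(3 + ε)) * l ^ (3 + ε) := by
      rw [Real.div_rpow hr.le hl0.le, Real.rpow_neg hl0.le, div_inv_eq_mul]
    rw [h2] at h1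
    calc g / β₀ * |phi0 B (r / l)| ≤ g / β₀ * (C * (r ^ (-(3 + ε)) * l ^ (3 + ε))) :=
          mul_le_mul_of_nonneg_left h1 hc0.le
      _ = _ := by ring
  · -- stability
    obtain ⟨S, hS⟩ := stable_of_nice (by linarith [one_le_kap3] : (0 : ℝ) ≤ kap3)
      (show Nice kap3 (rad (phi0 B)) from nice_WI hB)
    refine ⟨g / β₀ * S, fun N x hx => ?_⟩
    rw [hφ, energy_scale (phi0 B) (g / β₀) hl0]
    have hinj : Function.Injective (l⁻¹ • x) := by
      intro i j hij
      apply hx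
      rw [Pi.smul_apply, Pi.smul_apply] at hij
      exact smul_right_injective E3 (inv_pos.mpr hl0).ne' hij
    have h1 := mul_le_mul_of_nonneg_left (hS N _ hinj) hc0.le
    linarith
  · -- the transition
    intro β hβ
    have h1 : g ≤ β * (g / β₀) := by
      rw [mul_div_assoc', le_div_iff₀ hβ₀]
      nlinarith
    have h2 := densityJump_scale (c := g / β₀) hl0 (hjump _ h1)
    rw [← hφ] at h2
    obtain ⟨Pi, hPi, z, dl, dr, hz, hdl, hdr, hda, hdb⟩ := h2
    refine ⟨Pi, hPi, z, dl, dr, hz, hdl, hdr, hda.trans ?_, le_trans ?_ hdb⟩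
    · rw [div_le_iff₀ hl3]
      linarith
    · rw [le_div_iff₀ hl3]
      have h3 := le_abs_self b
      have h4 : b * l ^ 3 ≤ |b| * l ^ 3 := mul_le_mul_of_nonneg_right h3 hl3.le
      linarith

end Vale.Agent.P171.H709
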