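import Vale.Agent.P171.H709.Iter

open MeasureTheory Filter Topology
open scoped ENNReal

namespace Vale.Agent.P171.H709

theorem nice_smul {κ β : ℝ} {W : E3 → E3 → ℝ} (hβ : 0 ≤ β) (h : Nice κ W) :
    Nice (β * κ) (fun x y => β * W x y) where
  meas := h.meas.const_mul β
  symm := fun x y => by rw [h.symm]
  trans := fun v x y => by rw [h.trans]
  far := fun x y hxy => mul_nonpos_of_nonneg_of_nonpos hβ (h.far x y hxy)
  sup := fun x => by
    rw [quad_smul, mul_assoc]
    exact mul_le_mul_of_nonneg_left (h.sup x) hβ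

/-- Truncated pair functions at inverse temperature `β`. -/
noncomputable def WKb (β : ℝ) (B K : ℕ) (x y : E3) : ℝ := β * WK B K x y

/-- The limiting pair function at inverse temperature `β`. -/
noncomputable def WIb (β : ℝ) (B : ℕ) (x y : E3) : ℝ := β * WI B x y

theorem one_le_mul_kap {β : ℝ} (hβ : 1 ≤ β) : 1 ≤ β * kap3 := by
  have := one_le_kap3
  nlinarith

section
variable {B : ℕ} (hB : 2 ≤ B) {β : ℝ} (hβ : 1 ≤ β)
include hB hβ

theorem nice_WIb : Nice (β * kap3) (WIb β B) := nice_smul (by linarith) (nice_WI hB)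

theorem nice_WKb (K : ℕ) : Nice (β * kap3) (WKb β B K) := nice_smul (by linarith) (nice_WK hB K)

omit hB hβ in
theorem WKb_eq (K : ℕ) : WKb β B K =
    rad (fun ρ => core3 (β * A3) ρ - gsum (rr3 B) (fun k => β * trunc (al3 B) K k) ρ) := by
  funext x y
  simp only [WKb, WK, rad, core3, gsum_smul]
  ring

theorem nice_WKb2 (K : ℕ) : Nice (β * kap3) (rad (fun ρ => core3 (β * A3) ρ -
    2 * gsum (rr3 B) (fun k => β * trunc (al3 B) K k) ρ)) := by
  have h := nice_smul (by linarith : (0 : ℝ) ≤ β) (nice_WK2 hB K)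
  have e : (rad (fun ρ => core3 (β * A3) ρ -
      2 * gsum (rr3 B) (fun k => β * trunc (al3 B) K k) ρ)) = fun x y => β *
        rad (fun ρ => core3 A3 ρ - 2 * gsum (rr3 B) (trunc (al3 B) K) ρ) x y := by
    funext x y
    simp only [rad, core3, gsum_smul]
    ring
  rw [e]; exact h

omit hβ in
theorem WKb_succ (K : ℕ) : WKb β B (K + 1) =
    rad (fun ρ => core3 (β * A3) ρ - gsum (rr3 B) (fun k => β * trunc (al3 B) K k) ρ -
      (β * al3 B K) * kac (rr3 B K) ρ) := by
  funext x y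
  have h := congrFun (congrFun (WK_succ hB K) x) y
  simp only [rad] at h
  simp only [WKb, h, rad, core3, gsum_smul]
  ring

omit hβ in
theorem WKb_succ' (K : ℕ) : WKb β B (K + 1) =
    fun x y => WKb β B K x y - (β * al3 B K) * rad (kac (rr3 B K)) x y := by
  funext x y
  have h := congrFun (congrFun (WK_succ' hB K) x) y
  simp only [WKb]
  rw [h]
  ring

theorem WIb_le_WKb (K : ℕ) (x y : E3) : WIb β B x y ≤ WKb β B K x y :=
  mul_le_mul_of_nonneg_left (WI_le_WK hB K x y) (by linarith)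

/-- error of the truncation -/
theorem PW_WIb_le (K : ℕ) (ν : ℝ) :
    PW (WIb β B) ν ≤ PW (WKb β B K) ν +
      (∑' j, al3 B (j + K)) * (1 + ν ^ 2 / (2 * (β * kap3))) := by
  obtain ⟨s, hs⟩ : ∃ s, s = ∑' j, al3 B (j + K) := ⟨_, rfl⟩
  rw [← hs]
  have hκ := one_le_mul_kap hβ
  have hκ0 : 0 < β * kap3 := by linarith
  have hg : 0 ≤ 1 + ν ^ 2 / (2 * (β * kap3)) := by positivity
  have hsum : Summable fun j => al3 B (j + K) := (summable_nat_add_iff K).mpr (summable_al3 hB)
  have hs0 : 0 < s := by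
    rw [hs]
    exact hsum.tsum_pos (fun j => (al3_pos hB _).le) 0 (al3_pos hB _)
  have h0 := PW_nonneg hκ (nice_WKb hB hβ K) ν
  by_cases hs1 : 1 ≤ s
  · have h1 := PW_le hκ (nice_WIb hB hβ) ν
    nlinarith
  · have hs1' : s ≤ 1 := (not_le.mp hs1).le
    -- the auxiliary pair function
    have hc : Coef (rr3 B) (fun k => trunc (al3 B) K k + s⁻¹ * ctail (al3 B) K k) :=
      ((coef3 hB).trunc K).add (((coef3 hB).ctail K).smul (inv_nonneg.mpr hs0.le))
    have hct : ∑' k, ctail (al3 B) K k = s := by rw [tsum_ctail (summable_al3 hB), hs]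
    have hN0 : Nice kap3 (rad (fun ρ => core3 A3 ρ -
        gsum (rr3 B) (fun k => trunc (al3 B) K k + s⁻¹ * ctail (al3 B) K k) ρ)) := by
      refine nice_core_sub hc A3_pos.le ?_
      rw [Summable.tsum_add ((coef3 hB).trunc K).sm (((coef3 hB).ctail K).sm.mul_left _),
        tsum_mul_left, hct, inv_mul_cancel₀ hs0.ne']
      have := (tsum_trunc_le (coef3 hB) K).trans (tsum_al3_le hB)
      unfold A3 kap3; linarith
    have hN := nice_smul (by linarith : (0 : ℝ) ≤ β) hN0
    have hW : WIb β B = fun x y => (1 - s) * WKb β B K x y + s * (β * rad (fun ρ => core3 A3 ρ -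
        gsum (rr3 B) (fun k => trunc (al3 B) K k + s⁻¹ * ctail (al3 B) K k) ρ) x y) := by
      funext x y
      simp only [WIb, WKb, WI, WK, rad]
      rw [gsum_add ((coef3 hB).trunc K) (((coef3 hB).ctail K).smul (inv_nonneg.mpr hs0.le)),
        gsum_smul, gsum_split (coef3 hB) K]
      field_simp
      ring
    have h1 := PW_convex hκ (nice_WKb hB hβ K) hκ hN ν ν hs0.le hs1'
    rw [← hW] at h1
    have e : (1 - s) * ν + s * ν = ν := by ring
    rw [e] at h1
    have h2 := PW_le hκ hN ν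
    have h3 := mul_le_mul_of_nonneg_left h2 hs0.le
    have h4 : (1 - s) * PW (WKb β B K) ν ≤ PW (WKb β B K) ν := by nlinarith
    linarith

end

/-- The pressure as a function of the chemical potential is convex. -/
theorem convex_PW {κ : ℝ} (hκ : 1 ≤ κ) {W : E3 → E3 → ℝ} (hW : Nice κ W) (c : ℝ) :
    ConvexOn ℝ Set.univ (fun μ => PW W (μ + c)) := by
  refine ⟨convex_univ, fun x _ y _ a b ha hb hab => ?_⟩
  have h := PW_convex hκ hW hκ hW (x + c) (y + c) hb (by linarith : b ≤ 1)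
  have ea : 1 - b = a := by linarith
  rw [ea] at h
  have e1 : (fun u v => a * W u v + b * W u v) = W := by
    funext u v
    rw [← add_mul, hab, one_mul]
  have e2 : a * (x + c) + b * (y + c) = a * x + b * y + c := by
    have : b = 1 - a := by linarith
    rw [this]; ring
  rw [e1, e2] at h
  simpa [smul_eq_mul] using h

theorem K1_le {β : ℝ} (hβ : 1 ≤ β) :
    315 * (1 + (β * D3 + β * A3 / 2) ^ 2 / (β * kap3)) + 10 ≤ β * K13 := by
  have hβ0 : 0 < β := by linarith
  have hκ0 : 0 < kap3 := by linarith [one_le_kap3]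
  have e : (β * D3 + β * A3 / 2) ^ 2 / (β * kap3) = β * ((D3 + A3 / 2) ^ 2 / kap3) := by
    field_simp
  rw [e]
  unfold K13
  nlinarith

theorem errf_lt' {K1 : ℝ} (hK1 : 0 ≤ K1) {B : ℕ} (hB : 2 ≤ B) {τ : ℝ}
    (hBK : 128 * K1 < τ ^ 2 * B) (k : ℕ) :
    errf K1 B k < al3 B (k + 1) * (τ * (1 / 2 : ℝ) ^ (k + 1 + 1)) ^ 2 / 2 := by
  refine (errf_le hK1 hB k).trans_lt ?_
  have hb := two_le_bBr hB k
  have hb0 : (0 : ℝ) < (bB B k : ℝ) := by linarith
  have hal : al3 B (k + 1) = 1 / (bB B k : ℝ) ^ 2 := by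
    unfold al3; rw [if_neg (by omega), bB_succ]; push_cast; rw [one_div]
  rw [hal]
  -- b^2 ≥ B * 4^k
  have h1 : (B : ℝ) * 4 ^ k ≤ (bB B k : ℝ) ^ 2 := by
    have hk : B * 4 ^ k ≤ bB B k ^ 2 := by
      unfold bB
      rw [← pow_mul]
      have h4 : (4 : ℕ) ^ k = 2 ^ (2 * k) := by rw [pow_mul]; norm_num
      have h5 : 2 * k + 1 ≤ 2 ^ k * 2 := by
        have := Nat.lt_two_pow_self (n := k); omega
      calc B * 4 ^ k = B * 2 ^ (2 * k) := by rw [h4]
        _ ≤ B * B ^ (2 * k) := Nat.mul_le_mul_left _ (Nat.pow_le_pow_left hB _)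
        _ = B ^ (2 * k + 1) := by ring
        _ ≤ B ^ (2 ^ k * 2) := Nat.pow_le_pow_right (by omega) h5
    exact_mod_cast hk
  have h2 : (τ * (1 / 2 : ℝ) ^ (k + 1 + 1)) ^ 2 / 2 = τ ^ 2 / (32 * 4 ^ k) := by
    have : (4 : ℝ) ^ k = 2 ^ (2 * k) := by rw [pow_mul]; norm_num
    rw [this, one_div, inv_pow, mul_pow, inv_pow, ← pow_mul]
    field_simp
    ring
  have h3 : 128 * K1 * 4 ^ k < τ ^ 2 * (bB B k : ℝ) ^ 2 := by
    calc 128 * K1 * 4 ^ k < τ ^ 2 * B * 4 ^ k := mul_lt_mul_of_pos_right hBK (by positivity)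
      _ = τ ^ 2 * (B * 4 ^ k) := by ring
      _ ≤ _ := mul_le_mul_of_nonneg_left h1 (sq_nonneg _)
  rw [mul_div_assoc (1 / (bB B k : ℝ) ^ 2), h2, one_div_mul_eq_div, div_div,
    div_lt_div_iff₀ (by positivity) (by positivity)]
  calc 4 * K1 * (32 * 4 ^ k * (bB B k : ℝ) ^ 2)
      = (bB B k : ℝ) ^ 2 * (128 * K1 * 4 ^ k) := by ring
    _ < (bB B k : ℝ) ^ 2 * (τ ^ 2 * (bB B k : ℝ) ^ 2) :=
      mul_lt_mul_of_pos_left h3 (by positivity)
    _ = τ ^ 2 * (bB B k : ℝ) ^ 4 := by ring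

theorem jump_WI {B : ℕ} (hB4 : (4 : ℝ) < B) {τ : ℝ} (hτ0 : 0 < τ) (hτ : τ ≤ 1 / 256)
    (hBK : 128 * K13 < τ ^ 2 * B) {β : ℝ}
    (hβ : 1 ≤ β) (hβτ : 8 < β * 2 ^ 22 * τ ^ 2) : ∃ μ : ℝ, ∀ s, PW (WIb β B) (μ + β * A3 / 2) +
      max (τ * (s - μ)) ((1 / 64 - τ) * (s - μ)) ≤ PW (WIb β B) (s + β * A3 / 2) := by
  have hκ := one_le_mul_kap hβ
  have hκ0 : 0 < β * kap3 := by linarith
  have hk3 := one_le_kap3
  have hk0 : 0 < kap3 := by linarith
  have hβ0 : 0 < β := by linarith
  have hA := A3_pos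
  have hAb : 0 < β * A3 := by positivity
  have hK1 : 0 ≤ K13 := by unfold K13; positivity
  have hB4' : 4 < B := by exact_mod_cast hB4
  have hB : 2 ≤ B := by omega
  refine iter_jump (p := fun k μ => PW (WKb β B k) (μ + β * A3 / 2)) (P := fun μ =>
      PW (WIb β B) (μ + β * A3 / 2)) (α := fun k => β * al3 B k)
    (err := fun k => β * errf K13 B k) (ε := fun K => ∑' j, al3 B (j + K)) (C₀ := β * C03)
    (D := β * D3) (Cb := fun ν => 1 + (ν + β * A3 / 2) ^ 2 / (2 * (β * kap3))) hτ0 hτ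
    ?_ ?_ (fun k => mul_pos hβ0 (al3_pos hB k)) ?_ ?_ ?_ ?_ ?_ ?_ ?_ ?_ ?_ ?_ ?_
    ?_ ?_ ?_
  · -- convexity
    intro k
    exact convex_PW hκ (nice_WKb hB hβ k) _
  · -- monotone
    intro k x y hxy
    exact PW_mono_nu hκ (nice_WKb hB hβ k) (by linarith)
  · -- growth
    intro k
    refine ⟨1 + (β * A3 / 2) ^ 2 / (β * kap3), fun ν => ?_⟩
    refine (PW_le hκ (nice_WKb hB hβ k) _).trans ?_
    have hal : al3 B k ≤ 2 ^ 22 := by
      unfold al3; split_ifs
      · exact le_rfl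
      · have := two_le_bBr hB k
        have h1 : ((bB B k : ℕ) : ℝ)⁻¹ ≤ 1 := inv_le_one_of_one_le₀ (by linarith)
        norm_num; linarith
    have hal0 := al3_pos hB k
    have h1 : (ν + β * A3 / 2) ^ 2 ≤ 2 * (ν ^ 2 + (β * A3 / 2) ^ 2) := by
      nlinarith [sq_nonneg (ν - β * A3 / 2)]
    have h2 : (ν + β * A3 / 2) ^ 2 / (2 * (β * kap3)) ≤
        ν ^ 2 / (β * kap3) + (β * A3 / 2) ^ 2 / (β * kap3) := by
      rw [← add_div, div_le_div_iff₀ (by positivity) hκ0]
      nlinarith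
    have h3 : ν ^ 2 / (β * kap3) ≤ ν ^ 2 / (8 * (β * al3 B k)) := by
      apply div_le_div_of_nonneg_left (sq_nonneg _) (by positivity)
      have : 8 * al3 B k ≤ kap3 := by unfold kap3; linarith
      nlinarith
    linarith
  · -- lower
    intro k μ y hy
    have h := lower3 hκ hκ (nice_WKb hB hβ k) (mul_pos hβ0 (al3_pos hB k)).le
      (by have := (coef3 hB).rad2 k; linarith : 0 < rr3 B k)
      (by rw [← WKb_succ' hB]; exact nice_WKb hB hβ (k + 1)) (μ + β * A3 / 2) y
    rw [← WKb_succ' hB] at h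
    have e : μ + β * A3 / 2 + β * al3 B k * y = μ + β * al3 B k * y + β * A3 / 2 := by ring
    rw [e] at h
    exact h
  · -- upper
    intro k μ S hμ hS0 hS
    have hb := two_le_bBr hB k
    have hb4 : (4 : ℝ) ≤ (bB B k : ℝ) := by
      have : B ≤ bB B k := B_le_bB (by omega) k
      have : (B : ℝ) ≤ (bB B k : ℝ) := by exact_mod_cast this
      linarith
    have hb4' : 4 ≤ bB B k := by exact_mod_cast hb4
    have hal0 := al3_pos hB k
    have hfz : ∀ ρ : ℝ, ((RR3 B k : ℕ) : ℝ) ≤ ρ →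
        gsum (rr3 B) (fun j => β * trunc (al3 B) k j) ρ = 0 := by
      intro ρ hρ
      rw [gsum_smul, gsum3_zero hB k ρ hρ, mul_zero]
    have hcf : Coef (rr3 B) (fun j => β * trunc (al3 B) k j) :=
      ((coef3 hB).trunc k).smul hβ0.le
    have hS' : ∀ y, 0 ≤ y → PW (rad (fun ρ => core3 (β * A3) ρ -
        gsum (rr3 B) (fun k_1 => β * trunc (al3 B) k k_1) ρ)) (μ + β * al3 B k * y + β * A3 / 2) -
          β * al3 B k * y ^ 2 / 2 ≤ S := by
      rw [← WKb_eq]
      exact hS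
    have h := step3 (κ₀ := core3 (β * A3)) (f := gsum (rr3 B) (fun j => β * trunc (al3 B) k j))
      (R := RR3 B k)
      (l := ll3 B k) (α := β * al3 B k) (r := rr3 B k) (κ := β * kap3) (A := β * A3)
      (D := β * D3) (μ := μ) (S := S)
      (measurable_core3 _) (measurable_gsum hcf) (core3_nonneg hAb.le)
      (gsum_nonneg hcf) hfz
      (by
        unfold ll3
        calc 1000 ≤ 4 ^ 12 := by norm_num
          _ ≤ bB B k ^ 12 := Nat.pow_le_pow_left hb4' 12)
      (by
        unfold RR3 ll3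
        split_ifs
        · positivity
        · calc 100 * (2 * bB B k ^ 8) = 200 * bB B k ^ 8 := by ring
            _ ≤ 4 ^ 4 * bB B k ^ 8 := Nat.mul_le_mul_right _ (by norm_num)
            _ ≤ bB B k ^ 4 * bB B k ^ 8 := Nat.mul_le_mul_right _ (Nat.pow_le_pow_left hb4' 4)
            _ = bB B k ^ 12 := by ring)
      (mul_pos hβ0 hal0)
      (by
        have h1 : 1 ≤ al3 B k * (ll3 B k : ℝ) := by
          unfold al3 ll3
          push_cast
          split_ifs
          · have : (1 : ℝ) ≤ (bB B k : ℝ) ^ 12 := one_le_pow₀ (by linarith)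
            nlinarith
          · have e : ((bB B k : ℕ) : ℝ)⁻¹ * (bB B k : ℝ) ^ 12 = (bB B k : ℝ) ^ 11 := by
              field_simp
            rw [e]
            exact one_le_pow₀ (by linarith)
        rw [mul_assoc]
        exact one_le_mul_of_one_le_of_one_le hβ h1)
      (by
        unfold ll3 rr3
        push_cast
        have h4 : (200 : ℝ) ≤ (bB B k : ℝ) ^ 4 := by
          calc (200 : ℝ) ≤ 4 ^ 4 := by norm_num
            _ ≤ _ := pow_le_pow_left₀ (by norm_num) hb4 4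
        calc 200 * (bB B k : ℝ) ^ 12 ≤ (bB B k : ℝ) ^ 4 * (bB B k : ℝ) ^ 12 :=
              mul_le_mul_of_nonneg_right h4 (by positivity)
          _ = (bB B k : ℝ) ^ 16 := by ring)
      hκ
      (by
        have h1 : 16 * al3 B k ≤ kap3 := by
          unfold al3 kap3
          split_ifs
          · norm_num
          · have h1 : ((bB B k : ℕ) : ℝ)⁻¹ ≤ 1 := inv_le_one_of_one_le₀ (by linarith)
            norm_num; linarith
        nlinarith)
      (by rw [← WKb_eq]; exact nice_WKb hB hβ k)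
      (by rw [← WKb_succ hB]; exact nice_WKb hB hβ (k + 1)) (nice_WKb2 hB hβ k)
      hμ hAb.le hS0 hS'
    rw [← WKb_succ hB] at h
    refine h.trans ?_
    have h2 : 0 ≤ (ll3 B k : ℝ) / rr3 B k + (RR3 B k : ℝ) / (ll3 B k : ℝ) +
        1 / (ll3 B k : ℝ) := by
      unfold rr3; positivity
    have h3 := mul_le_mul_of_nonneg_right (K1_le hβ) h2
    unfold errf
    linarith
  · -- nonneg
    intro k ν
    exact PW_nonneg hκ (nice_WKb hB hβ k) _
  · -- trial
    intro k ν
    have h := PW_ge_trial hκ (nice_WKb hB hβ k) (A := β * A3) (fun x => by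
      simp only [WKb, WK, rad, sub_self, norm_zero]
      have h1 := core3_le hA.le 0
      have h2 := gsum_nonneg ((coef3 hB).trunc k) 0
      exact mul_le_mul_of_nonneg_left (by linarith) hβ0.le) (ν + β * A3 / 2)
    have e : (ν + β * A3 / 2 - β * A3 / 2) / 64 = ν / 64 := by ring
    rw [e] at h
    exact h
  · -- p 0 0 ≤ 1
    refine PW_le_one hκ (nice_WKb hB hβ 0) (fun {ι} _ x => ?_)
    have h1 : quad (WKb β B 0) x = β * quad (rad (core3 A3)) x := by
      unfold WKb
      rw [quad_smul]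
      congr 1
      unfold WK quad rad
      refine Finset.sum_congr rfl fun i _ => Finset.sum_congr rfl fun j _ => ?_
      change core3 A3 ‖x i - x j‖ - gsum (rr3 B) (trunc (al3 B) 0) ‖x i - x j‖ = _
      rw [gsum_trunc_zero, sub_zero]
    rw [h1]
    have h2 : ∑ i : ι, A3 ≤ quad (rad (core3 A3)) x := by
      unfold quad
      refine Finset.sum_le_sum fun i _ => ?_
      have h3 : A3 = rad (core3 A3) (x i) (x i) := by
        unfold rad; rw [sub_self, norm_zero, core3_eq (by norm_num)]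
      calc A3 = rad (core3 A3) (x i) (x i) := h3
        _ ≤ ∑ j, rad (core3 A3) (x i) (x j) :=
          Finset.single_le_sum (f := fun j => rad (core3 A3) (x i) (x j))
            (fun j _ => core3_nonneg hA.le _) (Finset.mem_univ i)
    rw [Finset.sum_const, Finset.card_univ, nsmul_eq_mul] at h2
    have h3 := mul_le_mul_of_nonneg_left h2 hβ0.le
    nlinarith
  · -- C₀
    intro k
    refine (PW_le hκ (nice_WKb hB hβ k) _).trans ?_
    have e : (0 + β * A3 / 2) ^ 2 / (2 * (β * kap3)) = β * ((A3 / 2) ^ 2 / (2 * kap3)) := by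
      field_simp
      ring
    rw [e]
    unfold C03
    nlinarith
  · -- D
    unfold D3
    exact le_of_eq (by ring)
  · -- α 0
    have : (al3 B 0) = 2 ^ 22 := by unfold al3; simp
    simp only [this]
    nlinarith
  · -- errors
    intro k
    have h := errf_lt' hK1 hB hBK k
    have h2 := mul_lt_mul_of_pos_left h hβ0
    have e : β * al3 B (k + 1) * (τ * (1 / 2 : ℝ) ^ (k + 1 + 1)) ^ 2 / 2 =
        β * (al3 B (k + 1) * (τ * (1 / 2 : ℝ) ^ (k + 1 + 1)) ^ 2 / 2) := by ring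
    rw [e]
    exact h2
  · have := (errf_tendsto hK1 hB).const_mul β
    rwa [mul_zero] at this
  · -- tails
    exact tendsto_sum_nat_add (al3 B)
  · -- P ≥ p k
    intro k ν
    exact PW_mono hκ (nice_WKb hB hβ k) hκ (nice_WIb hB hβ) (WIb_le_WKb hB hβ k) _
  · -- P ≤ p k + error
    intro k ν
    exact PW_WIb_le hB hβ k _

end Vale.Agent.P171.H709
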