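import Vale.Agent.P171.Bdl.B1

open MeasureTheory Filter Topology Set

namespace Vale.Agent.P171.H709

/-- The recursion with explicit slopes of the limiting kink. -/
theorem iter_kink {p : ℕ → ℝ → ℝ} {P : ℝ → ℝ} {α δ η : ℕ → ℝ} {D s₀ C₀ τ : ℝ}
    (hτ : τ ≤ 1 / 256)
    (hconv : ∀ k, ConvexOn ℝ Set.univ (p k)) (hmono : ∀ k, Monotone (p k))
    (hα : ∀ k, 0 < α k) (hgrow : ∀ k, ∃ C, ∀ ν, p k ν ≤ C + ν ^ 2 / (8 * α k))
    (hlow : ∀ k μ y, 0 ≤ y → p k (μ + α k * y) - α k * y ^ 2 / 2 ≤ p (k + 1) μ)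
    (hup : ∀ k μ S, |μ| ≤ D → 0 ≤ S →
      (∀ y, 0 ≤ y → p k (μ + α k * y) - α k * y ^ 2 / 2 ≤ S) → p (k + 1) μ ≤ S + η (k + 1))
    (h0 : ∀ k ν, 0 ≤ p k ν) (h64 : ∀ k ν, ν / 64 ≤ p k ν) (hs₀ : ∀ k, p k s₀ ≤ C₀)
    (hD : 100 * C₀ + 2 * |s₀| ≤ D) (hδ : ∀ k, 0 < δ k)
    (hδs : ∀ n, ∑ k ∈ Finset.range n, δ k ≤ τ)
    (hη : ∀ k, η k < α k * δ k ^ 2 / 2) (hηlim : Tendsto η atTop (𝓝 0))
    (hinit : KinkAt (p 0) D 0 (1 / 64) (η 0) 0)
    (hlim : ∀ s, Tendsto (fun k => p k s) atTop (𝓝 (P s))) :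
    ∃ μ : ℝ, ∀ s, P μ + max (τ * (s - μ)) ((1 / 64 - τ) * (s - μ)) ≤ P s := by
  have hmonok : ∀ s, Monotone (fun k => p k s) := by
    intro s
    refine monotone_nat_of_le_succ fun k => ?_
    have := hlow k s 0 le_rfl
    simpa using this
  have hle : ∀ k s, p k s ≤ P s := fun k s => (hmonok s).ge_of_tendsto (hlim s) k
  set σ : ℕ → ℝ := fun n => ∑ k ∈ Finset.range n, δ k with hσ
  have hσ0 : ∀ n, 0 ≤ σ n := fun n => Finset.sum_nonneg fun k _ => (hδ k).le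
  have hσs : ∀ n, σ (n + 1) = σ n + δ n := fun n => Finset.sum_range_succ _ _
  have hσm : Monotone σ := monotone_nat_of_le_succ fun n => by rw [hσs]; linarith [hδ n]
  have hσb : BddAbove (Set.range σ) := ⟨τ, by rintro _ ⟨n, rfl⟩; exact hδs n⟩
  have hσlim := tendsto_atTop_ciSup hσm hσb
  set σi : ℝ := ⨆ n, σ n with hσinf
  have hσi : σi ≤ τ := ciSup_le fun n => hδs n
  have hrec : ∀ k, ∃ μ, KinkAt (p k) D (σ k) (1 / 64 - σ k) (η k) μ := by
    intro k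
    induction k with
    | zero =>
      refine ⟨0, ?_⟩
      have : σ 0 = 0 := by simp [hσ]
      rw [this, sub_zero]
      exact hinit
    | succ k ih =>
      obtain ⟨μ, hμ⟩ := ih
      have h1 := hδs (k + 1)
      have h2 : σ (k + 1) ≤ 1 / 256 := h1.trans hτ
      rw [hσs] at h2
      obtain ⟨μ', hμ'⟩ := kink_next (hconv k) (hmono k) (hα k) (hgrow k) (hlow k) (hup k) (h0 k)
        (h64 k) (hs₀ (k + 1)) hD (hδ k) (hη k) (hσ0 k) h2 (by linarith [hσ0 k]) hμ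
      refine ⟨μ', ?_⟩
      have h3 : 1 / 64 - σ (k + 1) = 1 / 64 - σ k - δ k := by rw [hσs]; ring
      rw [h3, hσs]
      exact hμ'
  choose μs hμs using hrec
  obtain ⟨μ, -, φ, hφ, hφlim⟩ := (isCompact_Icc (a := -D) (b := D)).tendsto_subseq
    (x := μs) (fun k => by
      have := (hμs k).1
      rw [abs_le] at this
      exact ⟨this.1, this.2⟩)
  have hcont : ∀ k, Continuous (p k) := fun k => continuous_of_convexOn (hconv k)
  refine ⟨μ, fun s => ?_⟩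
  have hj : ∀ j, p j μ + max (σi * (s - μ)) ((1 / 64 - σi) * (s - μ)) ≤ P s := by
    intro j
    have hφt := hφ.tendsto_atTop
    have hs' : Tendsto (fun n => σ (φ n)) atTop (𝓝 σi) := hσlim.comp hφt
    have hm' : Tendsto (fun n => μs (φ n)) atTop (𝓝 μ) := hφlim
    have h1 : Tendsto (fun n => p j (μs (φ n)) +
        max (σ (φ n) * (s - μs (φ n))) ((1 / 64 - σ (φ n)) * (s - μs (φ n))) - η (φ n)) atTop
        (𝓝 (p j μ + max (σi * (s - μ)) ((1 / 64 - σi) * (s - μ)) - 0)) := by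
      refine Tendsto.sub (Tendsto.add (((hcont j).tendsto _).comp hm') ?_) (hηlim.comp hφt)
      refine Tendsto.max ?_ ?_
      · exact hs'.mul (tendsto_const_nhds.sub hm')
      · exact (tendsto_const_nhds.sub hs').mul (tendsto_const_nhds.sub hm')
    rw [sub_zero] at h1
    refine le_of_tendsto h1 ?_
    filter_upwards [hφt.eventually_ge_atTop j] with n hn
    have h2 := (hμs (φ n)).2 s
    have h3 : p j (μs (φ n)) ≤ p (φ n) (μs (φ n)) := hmonok _ hn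
    have h4 := hle (φ n) s
    linarith
  have h5 : Tendsto (fun j => p j μ + max (σi * (s - μ)) ((1 / 64 - σi) * (s - μ))) atTop
      (𝓝 (P μ + max (σi * (s - μ)) ((1 / 64 - σi) * (s - μ)))) := (hlim μ).add_const _
  have h6 := le_of_tendsto' h5 hj
  refine le_trans ?_ h6
  gcongr P μ + ?_
  rcases le_total 0 (s - μ) with h | h
  · have e1 : (1 / 64 - τ) * (s - μ) ≤ (1 / 64 - σi) * (s - μ) :=
      mul_le_mul_of_nonneg_right (by linarith) h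
    have e2 : τ * (s - μ) ≤ (1 / 64 - τ) * (s - μ) :=
      mul_le_mul_of_nonneg_right (by linarith) h
    exact (max_le (e2.trans e1) e1).trans (le_max_right _ _)
  · have e1 : τ * (s - μ) ≤ σi * (s - μ) := mul_le_mul_of_nonpos_right hσi h
    have e2 : (1 / 64 - τ) * (s - μ) ≤ τ * (s - μ) :=
      mul_le_mul_of_nonpos_right (by linarith) h
    exact (max_le e1 (e2.trans e1)).trans (le_max_left _ _)

/-- Packaged version: the slopes move by `δ k = τ / 2 ^ (k + 1)`. -/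
theorem iter_jump {p : ℕ → ℝ → ℝ} {P : ℝ → ℝ} {α err ε : ℕ → ℝ} {C₀ D τ : ℝ} {Cb : ℝ → ℝ}
    (hτ0 : 0 < τ) (hτ : τ ≤ 1 / 256)
    (hconv : ∀ k, ConvexOn ℝ Set.univ (p k)) (hmono : ∀ k, Monotone (p k))
    (hα : ∀ k, 0 < α k) (hgrow : ∀ k, ∃ C, ∀ ν, p k ν ≤ C + ν ^ 2 / (8 * α k))
    (hlow : ∀ k μ y, 0 ≤ y → p k (μ + α k * y) - α k * y ^ 2 / 2 ≤ p (k + 1) μ)
    (hup : ∀ k μ S, |μ| ≤ D → 0 ≤ S →
      (∀ y, 0 ≤ y → p k (μ + α k * y) - α k * y ^ 2 / 2 ≤ S) → p (k + 1) μ ≤ S + err k)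
    (h0 : ∀ k ν, 0 ≤ p k ν) (h64 : ∀ k ν, ν / 64 ≤ p k ν) (h00 : p 0 0 ≤ 1)
    (hC₀ : ∀ k, p k 0 ≤ C₀) (hD : 100 * C₀ ≤ D)
    (hα0 : 1 < α 0 * (τ * (1 / 2) ^ (0 + 1)) ^ 2 / 2)
    (herr : ∀ k, err k < α (k + 1) * (τ * (1 / 2 : ℝ) ^ (k + 1 + 1)) ^ 2 / 2)
    (herrlim : Tendsto err atTop (𝓝 0)) (hεlim : Tendsto ε atTop (𝓝 0))
    (hP1 : ∀ k ν, p k ν ≤ P ν) (hP2 : ∀ k ν, P ν ≤ p k ν + ε k * Cb ν) :
    ∃ μ : ℝ, ∀ s, P μ + max (τ * (s - μ)) ((1 / 64 - τ) * (s - μ)) ≤ P s := by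
  have hsum : ∀ n : ℕ, ∑ k ∈ Finset.range n, τ * (1 / 2 : ℝ) ^ (k + 1) ≤ τ := by
    intro n
    have h1 : ∑ k ∈ Finset.range n, τ * (1 / 2 : ℝ) ^ (k + 1) =
        τ * (1 / 2) * ∑ k ∈ Finset.range n, (1 / 2 : ℝ) ^ k := by
      rw [Finset.mul_sum]
      exact Finset.sum_congr rfl fun k _ => by rw [pow_succ]; ring
    have h2 : ∑ k ∈ Finset.range n, (1 / 2 : ℝ) ^ k ≤ 2 := by
      rw [geom_sum_eq (by norm_num)]
      have h3 : (0 : ℝ) ≤ (1 / 2) ^ n := by positivity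
      have h4 : ((1 / 2 : ℝ) ^ n - 1) / (1 / 2 - 1) = 2 - 2 * (1 / 2) ^ n := by ring
      linarith
    rw [h1]
    have h3 : τ * (1 / 2) * ∑ k ∈ Finset.range n, (1 / 2 : ℝ) ^ k ≤ τ * (1 / 2) * 2 :=
      mul_le_mul_of_nonneg_left h2 (by positivity)
    linarith
  have hC₀' : 0 ≤ C₀ := (h0 0 0).trans (hC₀ 0)
  exact iter_kink (p := p) (P := P) (α := α)
    (δ := fun k => τ * (1 / 2 : ℝ) ^ (k + 1)) (η := fun k => Nat.casesOn k 1 err) (D := D)
    (s₀ := 0) (C₀ := C₀) hτ hconv hmono hα hgrow hlow hup h0 h64 hC₀ (by simpa using hD)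
    (fun k => by positivity) hsum
    (fun k => by
      cases k with
      | zero => exact hα0
      | succ k => exact herr k)
    ((tendsto_add_atTop_iff_nat 1).1 herrlim)
    ⟨by simp; linarith, fun s => by
      show p 0 0 + max (0 * (s - 0)) (1 / 64 * (s - 0)) - 1 ≤ p 0 s
      have h1 : max (0 * (s - 0)) (1 / 64 * (s - 0)) ≤ p 0 s := by
        refine max_le ?_ ?_
        · simpa using h0 0 s
        · have := h64 0 s
          linarith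
      linarith⟩
    (fun s => by
      have h1 : Tendsto (fun k => P s - ε k * Cb s) atTop (𝓝 (P s - 0 * Cb s)) :=
        tendsto_const_nhds.sub (hεlim.mul_const _)
      rw [zero_mul, sub_zero] at h1
      exact tendsto_of_tendsto_of_tendsto_of_le_of_le h1 tendsto_const_nhds
        (fun k => by have := hP2 k s; simp only; linarith) (fun k => hP1 k s))

end Vale.Agent.P171.H709
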